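import Crest.Agent.R231.D.Poly
import Crest.Agent.R203.AFlow
import Crest.Agent.R203.ACut

/-! R231, block D: negative gradient flow of the discrete energy.
On `B = ZMod N → E n` (or `PiLp 2`/`EuclideanSpace` version) let `f x = N ∑ S (x k, x (k+1))` (smooth), `g x k` the gradient
of `f` in the slot `k`, `P y w = ‖y‖² • w - ⟪w, y⟫ • y`, `W x k = - κ x • P (x k) (g x k)` with a smooth compactly supported
cut-off `κ = 1` near `M^N`.  `R203.exists_smooth_flow` (bounded derivative by compact support) gives a global flow; it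
preserves `‖x k‖` (`⟪x k, W x k⟫ = 0`), hence `M^N`; there `d/dt f = - ∑ ‖W k‖²`, so `dist² ≤ (∫ ‖W‖)² ≤ t * drop`.
As long as all edges are `< δ`, `f = en` (`S_eq`); edges stay `≤ L/√N < δ/2` (continuity argument).  If `en` does not
drop on `[0,t]` then `W x = 0`, which is the hypothesis of `G.crit`. -/

set_option autoImplicit false
set_option linter.unusedVariables false
set_option linter.unusedSectionVars false
open Set
open scoped Classical

noncomputable section
namespace Crest.Agent.R231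

section Gen
open scoped ContDiff RealInnerProductSpace Topology
variable {ι F : Type} [Fintype ι] [DecidableEq ι] [NormedAddCommGroup F] [InnerProductSpace ℝ F] [FiniteDimensional ℝ F]

/-- the cut-off negative gradient field tangent to a product of spheres -/
theorem dflow_field {f : (ι → F) → ℝ} (hf : ContDiff ℝ ∞ f) : ∃ W : (ι → F) → ι → F, ContDiff ℝ ∞ W ∧
    HasCompactSupport W ∧ (∀ x k, ⟪x k, W x k⟫ = 0) ∧ ∀ x : ι → F, (∀ k, ‖x k‖ = 1) →
      fderiv ℝ f x (W x) = -∑ k, ‖W x k‖ ^ 2 ∧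
      (W x = 0 → ∀ k w, ⟪w, x k⟫ = 0 → fderiv ℝ f x (Pi.single k w) = 0) := by
  obtain ⟨κ, h1, h2, -, -, O, -, h3, -, h4⟩ := R203.exists_cutoff isOpen_univ
    (isCompact_closedBall (0 : ι → F) 1) (subset_univ _)
  let e := stdOrthonormalBasis ℝ F
  let g : (ι → F) → ι → F := fun x k => ∑ i, fderiv ℝ f x (Pi.single k (e i)) • e i
  have hg : ∀ x k w, ⟪g x k, w⟫ = fderiv ℝ f x (Pi.single k w) := fun x k w => by
    have : (Pi.single k w : ι → F) = ∑ i, ⟪e i, w⟫ • (Pi.single k (e i) : ι → F) := by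
      conv_lhs => rw [← e.sum_repr' w]
      ext j
      by_cases h : j = k
      · subst h; simp
      · simp [h]
    rw [this, map_sum]
    simp only [g, sum_inner, inner_smul_left, map_smul, smul_eq_mul, conj_trivial, mul_comm]
  have hgs : ∀ k, ContDiff ℝ ∞ fun x => g x k := fun k => ContDiff.sum fun i _ =>
    ((hf.fderiv_right (m := ∞) le_rfl).clm_apply contDiff_const).smul contDiff_const
  let V : (ι → F) → ι → F := fun x k => ⟪g x k, x k⟫ • x k - ⟪x k, x k⟫ • g x k
  have hV : ContDiff ℝ ∞ V := contDiff_pi.2 fun k =>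
    (((hgs k).inner ℝ (contDiff_apply ℝ F k)).smul (contDiff_apply ℝ F k)).sub
      (((contDiff_apply ℝ F k).inner ℝ (contDiff_apply ℝ F k)).smul (hgs k))
  refine ⟨fun x => κ x • V x, h1.smul hV, h2.smul_right, fun x k => ?_, fun x hx => ?_⟩
  · simp only [V, Pi.smul_apply, inner_smul_right, inner_sub_right, real_inner_comm (x k) (g x k)]
    ring
  · have e1 : κ x = 1 := h4 x (h3 (by
      rw [mem_closedBall_zero_iff, pi_norm_le_iff_of_nonneg zero_le_one]
      exact fun k => (hx k).le))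
    have e2 : ∀ k, ⟪x k, x k⟫ = 1 := fun k => by rw [real_inner_self_eq_norm_sq, hx, one_pow]
    simp only [e1, one_smul]
    refine ⟨?_, fun h0 k w hw => ?_⟩
    · conv_lhs => rw [← Finset.univ_sum_single (V x), map_sum]
      rw [← Finset.sum_neg_distrib]
      refine Finset.sum_congr rfl fun k _ => ?_
      rw [← hg, ← real_inner_self_eq_norm_sq]
      simp only [V, inner_sub_left, inner_sub_right, inner_smul_left, inner_smul_right, e2, conj_trivial,
        real_inner_comm (g x k) (x k)]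
      ring
    · have e3 := congrArg (fun v => ⟪v, w⟫) (congrFun h0 k)
      simp only [V, inner_sub_left, inner_smul_left, e2, conj_trivial, real_inner_comm w (x k), hw,
        Pi.zero_apply, inner_zero_left] at e3
      rw [← hg]
      linarith

theorem dflow_gen {f : (ι → F) → ℝ} (hf : ContDiff ℝ ∞ f) :
    ∃ φ : ℝ × (ι → Metric.sphere (0 : F) 1) → (ι → Metric.sphere (0 : F) 1), Continuous φ ∧
      (∀ x, φ (0, x) = x) ∧ (∀ s t x, φ (s + t, x) = φ (s, φ (t, x))) ∧ ∀ x t, 0 ≤ t →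
        f (fun k => φ (t, x) k) ≤ f (fun k => x k) ∧
        dist (φ (t, x)) x ^ 2 ≤ t * (f (fun k => x k) - f (fun k => φ (t, x) k)) ∧
        (0 < t → f (fun k => φ (t, x) k) = f (fun k => x k) →
          ∀ k w, ⟪w, (x k : F)⟫ = 0 → fderiv ℝ f (fun k => x k) (Pi.single k w) = 0) := by
  obtain ⟨W, hW, hc, h1, h2⟩ := dflow_field hf
  obtain ⟨K, hK⟩ := (hW.continuous_fderiv (by simp)).bounded_above_of_compact_support (hc.fderiv ℝ)
  obtain ⟨Φ, p1, p2, p3, -⟩ := R203.exists_smooth_flow hW hK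
  have pk : ∀ x k t, HasDerivAt (fun s => Φ (s, x) k) (W (Φ (t, x)) k) t := fun x k t =>
    hasDerivAt_pi.1 (p3 t x) k
  have nrm : ∀ t x k, ‖Φ (t, x) k‖ = ‖x k‖ := fun t x k => by
    have a1 : ∀ s, HasDerivAt (fun s => ⟪Φ (s, x) k, Φ (s, x) k⟫) 0 s := fun s => by
      have := (pk x k s).inner ℝ (pk x k s)
      rwa [real_inner_comm (Φ (s, x) k), h1, add_zero] at this
    have a2 := is_const_of_deriv_eq_zero (fun s => (a1 s).differentiableAt) (fun s => (a1 s).deriv) t 0
    rw [p2, real_inner_self_eq_norm_sq, real_inner_self_eq_norm_sq] at a2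
    exact (pow_left_inj₀ (norm_nonneg _) (norm_nonneg _) two_ne_zero).1 a2
  have lip : LipschitzWith K.toNNReal W := lipschitzWith_of_nnnorm_fderiv_le
    (hW.differentiable (by simp)) fun x => NNReal.coe_le_coe.1 ((hK x).trans (Real.le_coe_toNNReal K))
  have sg : ∀ s t x, Φ (s + t, x) = Φ (s, Φ (t, x)) := fun s t x =>
    congrFun (ODE_solution_unique_univ (v := fun _ => W) (s := fun _ => univ) (t₀ := 0)
      (f := fun s => Φ (s + t, x)) (g := fun s => Φ (s, Φ (t, x))) (fun _ => lip.lipschitzOnWith)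
      (fun s => ⟨(p3 (s + t) x).comp_add_const s t, trivial⟩) (fun s => ⟨p3 s _, trivial⟩)
      (by rw [zero_add, p2])) s
  refine ⟨fun p k => ⟨Φ (p.1, fun k => p.2 k) k, by simp [nrm]⟩, ?_, fun x => ?_, fun s t x => ?_,
    fun x t ht => ?_⟩
  · exact continuous_pi fun k => Continuous.subtype_mk ((continuous_apply k).comp
      (p1.continuous.comp (f := fun p : ℝ × (ι → Metric.sphere (0 : F) 1) => (p.1, fun k => (p.2 k : F)))
        (by fun_prop))) _
  · ext k; simp [p2]
  · ext k; simp [sg]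
  set y : ι → F := fun k => x k with hy
  have n1 : ∀ s k, ‖Φ (s, y) k‖ = 1 := fun s k => by simp [nrm, hy]
  have dF : ∀ s, HasDerivAt (fun s => f (Φ (s, y))) (-∑ k, ‖W (Φ (s, y)) k‖ ^ 2) s := fun s => by
    rw [← (h2 _ (n1 s)).1]
    exact (hf.differentiable (by simp) _).hasFDerivAt.comp_hasDerivAt s (p3 s y)
  have anti : Antitone fun s => f (Φ (s, y)) := antitone_of_hasDerivAt_nonpos dF fun s =>
    neg_nonpos.2 (Finset.sum_nonneg fun k _ => sq_nonneg _)
  have key : ∀ t, 0 ≤ t → ∀ k, ‖Φ (t, y) k - y k‖ ^ 2 ≤ t * (f y - f (Φ (t, y))) := by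
    intro t ht k
    rcases ht.eq_or_lt with rfl | ht
    · simp [p2]
    set u := t⁻¹ • (Φ (t, y) k - y k) with hu
    have a1 : Antitone fun s => f (Φ (s, y)) + 2 * ⟪u, Φ (s, y) k⟫ - s * ‖u‖ ^ 2 :=
      antitone_of_hasDerivAt_nonpos (fun s => ((dF s).add
        (((hasDerivAt_const s u).inner ℝ (pk y k s)).const_mul 2)).sub ((hasDerivAt_id s).mul_const _))
        fun s => by
          have b1 := Finset.single_le_sum (f := fun k => ‖W (Φ (s, y)) k‖ ^ 2) (fun k _ => sq_nonneg _)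
            (Finset.mem_univ k)
          have b2 := norm_sub_sq_real u (W (Φ (s, y)) k)
          have b3 := sq_nonneg ‖u - W (Φ (s, y)) k‖
          simp only [inner_zero_left, add_zero, one_mul, Pi.zero_apply]
          linarith
    have a2 := a1 ht.le
    have a3 : ⟪u, Φ (t, y) k⟫ - ⟪u, y k⟫ = t⁻¹ * ‖Φ (t, y) k - y k‖ ^ 2 := by
      rw [← inner_sub_right, hu, real_inner_smul_left, real_inner_self_eq_norm_sq]
    have a4 : t * ‖u‖ ^ 2 = t⁻¹ * ‖Φ (t, y) k - y k‖ ^ 2 := by
      rw [hu, norm_smul, Real.norm_of_nonneg (by positivity)]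
      field_simp
    simp only [p2] at a2
    rw [← inv_mul_le_iff₀ ht]
    linarith
  have m0 : ∀ t, 0 ≤ t → f (Φ (t, y)) ≤ f y := fun t ht => by simpa [p2] using anti ht
  refine ⟨m0 t ht, ?_, fun h0 he => (h2 y fun k => by simp [hy]).2 ?_⟩
  · refine (Real.le_sqrt dist_nonneg (mul_nonneg ht (sub_nonneg.2 (m0 t ht)))).1 ?_
    refine (dist_pi_le_iff (Real.sqrt_nonneg _)).2 fun k => Real.le_sqrt_of_sq_le ?_
    rw [Subtype.dist_eq, dist_eq_norm]
    exact key t ht k
  · have he' : f (Φ (t, y)) = f y := he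
    have c1 : ∀ s ∈ Ioo 0 t, Φ (s, y) = y := fun s hs => by
      ext1 k
      have b1 := key s hs.1.le k
      have b2 : f (Φ (t, y)) ≤ f (Φ (s, y)) := anti hs.2.le
      have b3 : ‖Φ (s, y) k - y k‖ ^ 2 ≤ 0 := b1.trans (mul_nonpos_of_nonneg_of_nonpos hs.1.le (by linarith))
      exact sub_eq_zero.1 (norm_eq_zero.1 (pow_eq_zero_iff two_ne_zero |>.1 (le_antisymm b3 (sq_nonneg _))))
    have c2 : t / 2 ∈ Ioo 0 t := ⟨by linarith, by linarith⟩
    have c3 := p3 (t / 2) y
    rw [c1 _ c2] at c3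
    exact c3.unique ((hasDerivAt_const (t / 2) y).congr_of_eventuallyEq
      (Filter.eventually_of_mem (Ioo_mem_nhds c2.1 c2.2) c1))

end Gen

namespace Setup
variable {n : ℕ} (G : Setup n) (N : ℕ) [NeZero N]

theorem exists_flow {L : ℝ} (hL : 4 * L ^ 2 < N * G.δ ^ 2) :
    ∃ φ : ℝ × (ZMod N → M n) → (ZMod N → M n), Continuous φ ∧ (∀ x, φ (0, x) = x) ∧
      (∀ s t x, φ (s + t, x) = φ (s, φ (t, x))) ∧
      ∀ x, G.en N x ≤ L ^ 2 → ∀ t, 0 ≤ t → G.en N (φ (t, x)) ≤ G.en N x ∧
        dist (φ (t, x)) x ^ 2 ≤ t * (G.en N x - G.en N (φ (t, x))) ∧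
        (0 < t → G.en N (φ (t, x)) = G.en N x → G.en N x = 0 ∨
          ∃ i, ∃ m : ℕ, ∃ b s, 0 < m ∧ m * G.ℓ i < N * G.δ ∧ x = G.nodes N (G.geo i m b s)) := by
  let pr : ZMod N → (ZMod N → E n) →L[ℝ] E n × E n := fun j =>
    (ContinuousLinearMap.proj j).prod (ContinuousLinearMap.proj (j + 1))
  let f : (ZMod N → E n) → ℝ := fun x => N * ∑ j, G.S (pr j x)
  have hf : ContDiff ℝ (⊤ : ℕ∞) f := contDiff_const.mul (ContDiff.sum fun j _ => G.S_smooth.comp (pr j).contDiff)
  have hd : ∀ x v, fderiv ℝ f x v = N * ∑ j, fderiv ℝ G.S (x j, x (j + 1)) (v j, v (j + 1)) := fun x v => by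
    have := (HasFDerivAt.fun_sum (u := Finset.univ) fun j _ =>
      ((G.S_smooth.differentiable (by simp) (pr j x)).hasFDerivAt.comp x (pr j).hasFDerivAt)).const_mul (N : ℝ)
    rw [HasFDerivAt.fderiv (f := f) this]
    simp [pr]
  have N0 : (0 : ℝ) < N := Nat.cast_pos.2 (NeZero.pos N)
  have he : ∀ x ∈ G.Dom N, f (fun k => x k) = G.en N x := fun x hx => by
    simp only [f, en]
    congr 1
    exact Finset.sum_congr rfl fun j _ => G.S_eq _ _ (hx j)
  have hD : ∀ x, G.en N x ≤ L ^ 2 → x ∈ G.Dom N := fun x hx k => by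
    have h1 := G.ρ_sq_le_en N x k
    refine lt_of_pow_lt_pow_left₀ 2 G.δ_pos.le (lt_of_mul_lt_mul_left ?_ N0.le)
    nlinarith [sq_nonneg L]
  obtain ⟨φ, h1, h2, h3, h4⟩ := dflow_gen hf
  refine ⟨φ, h1, h2, h3, fun x hx t ht => ?_⟩
  have hc : Continuous fun s => φ (s, x) := h1.comp (by fun_prop)
  have hs : Icc 0 t ⊆ {s | G.en N (φ (s, x)) ≤ L ^ 2} := by
    refine IsClosed.Icc_subset_of_forall_mem_nhdsWithin
      ((isClosed_le ((G.continuous_en N).comp hc) continuous_const).inter isClosed_Icc) (by simpa [h2] using hx)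
      fun s hs => ?_
    filter_upwards [mem_nhdsWithin_of_mem_nhds (hc.continuousAt.preimage_mem_nhds
      ((G.isOpen_Dom N).mem_nhds (hD _ hs.1))), self_mem_nhdsWithin] with u h5 h6
    have h7 := (h4 x u (hs.2.1.trans (le_of_lt h6))).1
    rw [he _ h5, he _ (hD x hx)] at h7
    exact h7.trans hx
  have h5 := h4 x t ht
  rw [he _ (hD _ (hs ⟨ht, le_rfl⟩)), he _ (hD x hx)] at h5
  refine ⟨h5.1, h5.2.1, fun h6 h7 => ?_⟩
  have hcr : ∀ k (w : E n), inner ℝ w (x k : E n) = 0 →
      fderiv ℝ G.S (x (k - 1), x k) (0, w) + fderiv ℝ G.S (x k, x (k + 1)) (w, 0) = 0 := by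
    intro k w hw
    have h8 := h5.2.2 h6 h7 k w hw
    rw [hd, mul_eq_zero, or_iff_right N0.ne'] at h8
    have e : ∀ j : ZMod N, fderiv ℝ G.S (x j, x (j + 1))
        ((Pi.single k w : ZMod N → E n) j, (Pi.single k w : ZMod N → E n) (j + 1)) =
        (if j = k - 1 then fderiv ℝ G.S (x j, x (j + 1)) (0, w) else 0) +
          if j = k then fderiv ℝ G.S (x j, x (j + 1)) (w, 0) else 0 := fun j => by
      simp only [Pi.single_apply, eq_sub_iff_add_eq]
      split_ifs
      · rw [← map_add]; simp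
      · simp
      · simp
      · simp [Prod.mk_zero_zero]
    simpa [e, Finset.sum_add_distrib] using h8
  rcases G.crit N x (hD x hx) hcr with h8 | ⟨i, m, b, s, hm, h8, h9⟩
  · left
    simp [en, h8, G.ρ_self]
  · refine Or.inr ⟨i, m, b, s, hm, ?_, funext fun k => ?_⟩
    · have := hD x hx 0
      rw [h9, div_lt_iff₀ N0] at this
      linarith
    · have := h8 (k.val : ℤ)
      rw [Int.cast_natCast, ZMod.natCast_zmod_val, Int.cast_natCast] at this
      rw [this, nodes, geo_ev]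

end Setup
end Crest.Agent.R231
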