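import Crest.Agent.R231.D.Psi
import Crest.Agent.R231.T.Rank

/-! R231, block D: homological consequences of the deformation.
`const`: `c ∈ sup (Lt b')` with `b' < b` (`exists_lt_of_mem_sup`), push with `Ψ t`, `w = hty (Ψ t) c`.
`n1`: push, then `small3` for the open cover (two tubes, `Lt l`), shrink `r` so that the tubes are disjoint (`mem_sup_of_add`).
`n2`: apply `Ψ t (1,·)` to `c₁ + c₂ + dd w`, use `hty (Ψ t) c_i` (supported in `Tube r₂ ∪ Lt l`), subdivide everything with one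
`k`, and separate the two disjoint tubes.
`findim`: with `const` every class of `Lt l` comes from `Lt l'`, `l' < l`; factor through the compact set
`{x ∈ M^N | en ≤ l'²}` and the open set `{x ∈ (E n)^N | x k ≠ 0, normalisation ∈ Dom, en < l²}` of the normed space
`ZMod N → E n` (`exists_BH`, `exists_rankLE`, `RankLE.of_surj`). -/

set_option autoImplicit false
set_option linter.unusedVariables false
set_option linter.unusedSectionVars false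
open Set
open scoped Classical

noncomputable section
namespace Crest.Agent.R231
namespace Setup
variable {n : ℕ} (G : Setup n)
/-- level non-increasing deformations of `Lt L` -/
def dmDef (H : ℝ × G.Loop → G.Loop) (L : ℝ) : Prop := ContinuousOn H (Icc 0 1 ×ˢ G.Lt L) ∧
  ∀ γ ∈ G.Lt L, H (0, γ) = γ ∧ ∀ u ∈ Icc (0 : ℝ) 1, (H (u, γ)).T ≤ γ.T

section
variable {G} {H : ℝ × G.Loop → G.Loop} {L b : ℝ} {c : Ch G.Loop}

theorem dm_Lt_mono (h : b ≤ L) : G.Lt b ⊆ G.Lt L := fun _ hγ => lt_of_lt_of_le hγ h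

theorem dmDef.maps (h : G.dmDef H L) (hb : b ≤ L) : MapsTo H (Icc 0 1 ×ˢ G.Lt b) (G.Lt b) := fun p hp =>
  lt_of_le_of_lt ((h.2 p.2 (dm_Lt_mono hb hp.2)).2 p.1 hp.1) hp.2

theorem dmDef.hty_mem (h : G.dmDef H L) (hb : b ≤ L) (hc : c ∈ sup (G.Lt b)) : hty H c ∈ sup (G.Lt b) :=
  R231.hty_mem hc (h.maps hb)

theorem dmDef.mp_mem (h : G.dmDef H L) (hb : b ≤ L) (hc : c ∈ sup (G.Lt b)) :
    mp (fun x => H (1, x)) c ∈ sup (G.Lt b) :=
  R231.mp_mem hc fun γ hγ => h.maps hb ⟨right_mem_Icc.2 zero_le_one, hγ⟩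

theorem dmDef.mp_dd (h : G.dmDef H L) (hc : c ∈ sup (G.Lt L)) :
    mp (fun x => H (1, x)) (dd c) = dd (mp (fun x => H (1, x)) c) :=
  R231.mp_dd hc (h.1.comp (by fun_prop) fun γ hγ => ⟨right_mem_Icc.2 zero_le_one, hγ⟩)

theorem dmDef.eq (h : G.dmDef H L) (hc : c ∈ sup (G.Lt L)) :
    c + dd (hty H c) = hty H (dd c) + mp (fun x => H (1, x)) c := by
  have := dd_hty hc h.1
  rw [mp_congr hc fun γ hγ => (h.2 γ hγ).1, mp_id] at this
  linear_combination (norm := ch2) this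

theorem dm_Tube {l r : ℝ} (hr : 0 < r) : ∃ r', 0 < r' ∧ r' ≤ r ∧ ∀ b, G.Tube l b r' ∩ G.Tube l (!b) r' ⊆ G.Lt l := by
  obtain ⟨r₀, h0, h⟩ := G.exists_disjoint_Tube l
  have h' := h.mono (Metric.thickening_mono (min_le_left r₀ r) _) (Metric.thickening_mono (min_le_left r₀ r) _)
  refine ⟨min r₀ r, lt_min h0 hr, min_le_right _ _, fun b => ?_⟩
  cases b
  · exact h'.symm.inter_eq.subset.trans (empty_subset _)
  · exact h'.inter_eq.subset.trans (empty_subset _)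

end

/-- normalisation -/
def dmN (n : ℕ) (v : E n) : M n :=
  if h : v = 0 then north n else ⟨‖v‖⁻¹ • v, by simp [norm_smul, h]⟩

theorem dmN_coe (x : M n) : dmN n x = x := by
  have h : ‖(x : E n)‖ = 1 := norm_eq_of_mem_sphere x
  rw [dmN, dif_neg (ne_zero_of_mem_unit_sphere x)]
  exact Subtype.ext (by simp)

theorem dmN_cont : ContinuousOn (dmN n) {0}ᶜ := by
  rw [Topology.IsInducing.subtypeVal.continuousOn_iff]
  refine ((continuous_norm.continuousOn.inv₀ fun v hv => norm_ne_zero_iff.2 hv).smul continuousOn_id).congr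
    fun v hv => ?_
  rw [Function.comp_apply, dmN, dif_neg hv]
  rfl

theorem const {a b : ℝ} (ha : 0 < a) (hab : a ≤ b) (h : ∀ x ∈ G.critV, x ∉ Ico a b) {c : Ch G.Loop}
    (hc : c ∈ sup (G.Lt b)) (hd : dd c ∈ sup (G.Lt a)) : ∃ w ∈ sup (G.Lt b), c + dd w ∈ sup (G.Lt a) := by
  obtain ⟨b', hb', hc'⟩ := exists_lt_of_mem_sup (mem_sup_inter (mem_sup_univ c) hc)
  obtain ⟨Ψ, h1, h2, -⟩ := G.exists_Psi b
  obtain ⟨t, ht, h3⟩ := h2 a b' ha hb' fun x hx hx' => h x hx ⟨hx'.1, hx'.2.trans_lt hb'⟩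
  have hΨ : G.dmDef (Ψ t) b := h1 t ht
  refine ⟨_, hΨ.hty_mem le_rfl hc, ?_⟩
  rw [hΨ.eq hc]
  exact add_mem (hΨ.hty_mem hab hd) (mp_mem hc' fun γ hγ => h3 γ (le_of_lt hγ.2))

theorem findim (l : ℝ) : ∃ R : ℕ, RankLE (G.Lt l) ∅ (G.Lt l) ∅ R := by
  rcases le_or_gt l 0 with hl | hl
  · rw [eq_empty_of_forall_notMem (s := G.Lt l) fun γ hγ => (γ.T_nonneg.trans_lt hγ).not_ge hl]
    exact ⟨0, RankLE.empty _ _ _⟩
  have hδ := G.δ_pos
  obtain ⟨e, he, hcr⟩ := G.critV_isolated l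
  obtain ⟨l', h0, hl', hle⟩ : ∃ l', 0 < l' ∧ l' < l ∧ l - e ≤ l' :=
    ⟨max (l / 2) (l - e), by positivity, max_lt (half_lt_self hl) (sub_lt_self _ he), le_max_right _ _⟩
  obtain ⟨N, hN⟩ := exists_nat_gt (max (l / G.δ) (l ^ 2 / G.δ ^ 2))
  rw [max_lt_iff, div_lt_iff₀ hδ, div_lt_iff₀ (by positivity)] at hN
  have hN0 : (0 : ℝ) < N := (mul_pos_iff_of_pos_right hδ).1 (hl.trans hN.1)
  have : NeZero N := ⟨by exact_mod_cast hN0.ne'⟩
  obtain ⟨π, H, hπ, hT, h1, h2, -⟩ := G.exists_BH N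
  have hH : G.dmDef H (N * G.δ) := ⟨h1, fun γ hγ => ⟨(h2 γ hγ).1, (h2 γ hγ).2.2⟩⟩
  have hD : ∀ x, G.en N x < l ^ 2 → x ∈ G.Dom N := fun x hx k => lt_of_pow_lt_pow_left₀ 2 hδ.le
    (lt_of_mul_lt_mul_left ((G.ρ_sq_le_en N x k).trans_lt (hx.trans hN.2)) hN0.le)
  obtain ⟨ι, ν, O, hι, hO, hν, hνι⟩ : ∃ (ι : (ZMod N → M n) → ZMod N → E n) (ν : (ZMod N → E n) → ZMod N → M n)
      (O : Set (ZMod N → E n)), Continuous ι ∧ IsOpen O ∧ ContinuousOn ν O ∧ ∀ x, ι x ∈ O ∧ ν (ι x) = x := by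
    refine ⟨fun x k => x k, fun x k => dmN n (x k), {x | ∀ k, x k ≠ 0}, by fun_prop, ?_,
      continuousOn_pi.2 fun k => dmN_cont.comp (continuous_apply k).continuousOn fun x hx => hx k,
      fun x => ⟨fun k => ne_zero_of_mem_unit_sphere (x k), funext fun k => dmN_coe (x k)⟩⟩
    simp only [ofPred_forall]
    exact isOpen_iInter_of_finite fun k => isOpen_ne_fun (continuous_apply k) continuous_const
  have hll : l' ^ 2 < l ^ 2 := pow_lt_pow_left₀ hl' h0.le two_ne_zero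
  obtain ⟨R, hR⟩ := exists_rankLE (K := ι '' {x | G.en N x ≤ l' ^ 2}) (U := O ∩ ν ⁻¹' {x | G.en N x < l ^ 2})
    ((isClosed_le (G.continuous_en N) continuous_const).isCompact.image hι) isCompact_empty (empty_subset _)
    (hν.isOpen_inter_preimage hO (isOpen_lt (G.continuous_en N) continuous_const)) isOpen_empty (by
      rintro _ ⟨x, hx, rfl⟩
      refine ⟨(hνι x).1, ?_⟩
      rw [mem_preimage, (hνι x).2]
      exact lt_of_le_of_lt hx hll) Subset.rfl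
  have hc : ContinuousOn (fun x => π (ν x)) (O ∩ ν ⁻¹' {x | G.en N x < l ^ 2}) :=
    hπ.comp (hν.mono inter_subset_left) fun x hx => hD _ hx.2
  refine ⟨R, hR.of_surj (mp fun x => π (ν x)) (fun c hc => ?_) fun y _ hy =>
    mp_Bdy hc (fun x hx => ?_) (mapsTo_empty _ _) hy⟩
  · rw [mem_Cyc_empty] at hc
    obtain ⟨w, hw, hw'⟩ := G.const h0 hl'.le (fun x hx hx' => hx'.2.ne (hcr x hx (abs_le.2
      ⟨by linarith [hx'.1], by linarith [hx'.2]⟩))) hc.1 (by rw [hc.2]; exact zero_mem _)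
    have hd : dd (c + dd w) = 0 := by rw [map_add, hc.2, dd_dd, add_zero]
    have hn : ContinuousOn (fun γ => ι (G.nodes N γ)) (G.Lt l') := (hι.comp (G.continuous_nodes N)).continuousOn
    have h3 := sup_mono (dm_Lt_mono (hl'.trans hN.1).le) hw'
    have h4 := hH.eq h3
    rw [hd, map_zero, mp_congr h3 fun γ hγ => (h2 γ hγ).2.1] at h4
    refine ⟨mp (fun γ => ι (G.nodes N γ)) (c + dd w), mp_Cyc hn (fun γ hγ => mem_image_of_mem ι
      ((G.en_nodes_le N γ).trans (pow_le_pow_left₀ γ.T_nonneg (le_of_lt hγ) 2))) (mapsTo_empty _ _)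
      (mem_Cyc_empty.2 ⟨hw', hd⟩), mem_Bdy_empty.2 ⟨w + hty H (c + dd w),
        add_mem hw (sup_mono (dm_Lt_mono hl'.le) (hH.hty_mem (hl'.trans hN.1).le hw')), ?_⟩⟩
    rw [mp_comp hw' hn, map_add]
    simp only [fun x => (hνι x).2]
    linear_combination (norm := ch2) h4
  · exact (hT _ (hD _ hx.2)).trans_lt ((Real.sqrt_lt' hl).2 hx.2)

theorem n1 {l : ℝ} (hl : 0 < l) {r : ℝ} (hr : 0 < r) : ∃ e₀, 0 < e₀ ∧ ∀ e, 0 < e → e ≤ e₀ →
    ∀ c ∈ sup (G.Lt (l + e)), dd c ∈ sup (G.Lt l) →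
    ∃ c₁ ∈ sup (G.Tube l true r ∩ G.Lt (l + e)), ∃ c₂ ∈ sup (G.Tube l false r ∩ G.Lt (l + e)),
      dd c₁ ∈ sup (G.Lt l) ∧ dd c₂ ∈ sup (G.Lt l) ∧ ∃ w ∈ sup (G.Lt (l + e)), c + c₁ + c₂ + dd w ∈ sup (G.Lt l) := by
  obtain ⟨r', hr', hrr, hdis⟩ := dm_Tube (G := G) (l := l) hr
  obtain ⟨Ψ, h1, -, -, h2⟩ := G.exists_Psi (l + 1)
  obtain ⟨e₀, he₀, hL, t, ht, h3⟩ := h2 l hl (lt_add_one l) r' hr'
  have hΨ : G.dmDef (Ψ t) (l + 1) := h1 t ht
  refine ⟨e₀, he₀, fun e he hee c hc hd => ?_⟩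
  have hL' : l + e ≤ l + 1 := by linarith
  have hc' := sup_mono (dm_Lt_mono hL') hc
  have h4 := mem_sup_inter (mp_mem hc fun γ hγ => h3 γ (lt_of_lt_of_le hγ (by linarith))) (hΨ.mp_mem hL' hc)
  obtain ⟨k, hk⟩ := small3 (G.isOpen_Tube l true r') (G.isOpen_Tube l false r') (G.isOpen_Lt l) inter_subset_left h4
  obtain ⟨_, h5, c₃, h₃, e1⟩ := Submodule.mem_sup.1 (hk k le_rfl)
  obtain ⟨c₁, h₁, c₂, h₂, rfl⟩ := Submodule.mem_sup.1 h5
  have h6 : dd (mp (fun x => Ψ t (1, x)) c) ∈ sup (G.Lt l) := hΨ.mp_dd hc' ▸ hΨ.mp_mem (by linarith) hd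
  have h₃' := sup_mono inter_subset_right h₃
  have h7 : dd c₁ + dd c₂ ∈ sup (G.Lt l) := by
    have := add_mem (sdk_mem k h6) (dd_mem h₃')
    rw [← dd_sdk, ← e1, map_add, map_add, add_assoc, add_self, add_zero] at this
    exact this
  have h₁' := dd_mem (sup_mono inter_subset_right h₁)
  have h₂' := dd_mem (sup_mono inter_subset_right h₂)
  refine ⟨c₁, sup_mono (fun γ hγ => mem_inter (Metric.thickening_mono hrr _ hγ.2) hγ.1.2) h₁,
    c₂, sup_mono (fun γ hγ => mem_inter (Metric.thickening_mono hrr _ hγ.2) hγ.1.2) h₂,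
    mem_sup_of_add h₁' h₂' h7 (hdis true), mem_sup_of_add h₂' h₁' (add_comm (dd c₁) _ ▸ h7) (hdis false),
    _, add_mem (hΨ.hty_mem hL' hc) (sdkH_mem k (hΨ.mp_mem hL' hc)), ?_⟩
  convert add_mem (add_mem (hΨ.hty_mem (by linarith) hd) (sdkH_mem k h6)) h₃' using 1
  rw [map_add]
  linear_combination (norm := ch2) hΨ.eq hc' + dd_sdkH k (mp (fun x => Ψ t (1, x)) c) + e1

theorem n2 {l : ℝ} (hl : 0 < l) {r₂ : ℝ} (hr : 0 < r₂) : ∃ r₁, 0 < r₁ ∧ r₁ ≤ r₂ ∧ ∃ e₀, 0 < e₀ ∧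
    ∀ e, 0 < e → e ≤ e₀ → ∀ b : Bool,
    ∀ c₁ ∈ sup (G.Tube l b r₁ ∩ G.Lt (l + e)), ∀ c₂ ∈ sup (G.Tube l (!b) r₁ ∩ G.Lt (l + e)),
      dd c₁ ∈ sup (G.Lt l) → dd c₂ ∈ sup (G.Lt l) →
      (∃ w ∈ sup (G.Lt (l + e)), c₁ + c₂ + dd w ∈ sup (G.Lt l)) →
      ∃ w₁ ∈ sup (G.Tube l b r₂ ∩ G.Lt (l + e)), c₁ + dd w₁ ∈ sup (G.Lt l) := by
  obtain ⟨r', hr', hrr, hdis⟩ := dm_Tube (G := G) (l := l) hr
  obtain ⟨Ψ, h1, -, h0, h2⟩ := G.exists_Psi (l + 1)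
  obtain ⟨e₀, he₀, hL, t, ht, h3⟩ := h2 l hl (lt_add_one l) r' hr'
  choose r₁ hr₁ e₁ he₁ _ h4 using fun b => h0 l hl (lt_add_one l) b r' hr'
  have hΨ : G.dmDef (Ψ t) (l + 1) := h1 t ht
  obtain ⟨ρ, hρ, hρ', hρ1⟩ : ∃ ρ, 0 < ρ ∧ ρ ≤ r' ∧ ∀ b, ρ ≤ r₁ b :=
    ⟨min r' (min (r₁ true) (r₁ false)), lt_min hr' (lt_min (hr₁ _) (hr₁ _)), min_le_left _ _, fun b => by
      cases b <;> simp⟩
  refine ⟨ρ, hρ, hρ'.trans hrr, min e₀ (min (e₁ true) (e₁ false)), lt_min he₀ (lt_min (he₁ _) (he₁ _)),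
    fun e he hee b c₁ h₁ c₂ h₂ d₁ d₂ ⟨w, hw, hz⟩ => ?_⟩
  have he1 : ∀ b, e ≤ e₁ b := fun b => hee.trans (by cases b <;> simp)
  have he0 : e ≤ e₀ := hee.trans (min_le_left _ _)
  have hL' : l + e ≤ l + 1 := by linarith
  have hl1 : l ≤ l + 1 := by linarith
  have h5 : ∀ b, ∀ c ∈ sup (G.Tube l b ρ ∩ G.Lt (l + e)),
      hty (Ψ t) c ∈ sup ((G.Tube l b r' ∪ G.Lt l) ∩ G.Lt (l + e)) := fun b c hc =>
    mem_sup_inter (hty_mem hc fun p hp => h4 b p.2 (Metric.thickening_mono (hρ1 b) _ hp.2.1)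
      (lt_of_lt_of_le hp.2.2 (by linarith [he1 b])) t ht p.1 hp.1) (hΨ.hty_mem hL' (sup_mono inter_subset_right hc))
  have h6 : hty (Ψ t) c₁ + hty (Ψ t) c₂ + mp (fun x => Ψ t (1, x)) w ∈
      sup ((G.Tube l b r' ∪ G.Tube l (!b) r' ∪ G.Lt l) ∩ G.Lt (l + e)) :=
    add_mem (add_mem (sup_mono (inter_subset_inter_left _ (union_subset_union_left _ subset_union_left)) (h5 _ _ h₁))
      (sup_mono (inter_subset_inter_left _ (union_subset_union_left _ subset_union_right)) (h5 _ _ h₂)))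
      (mem_sup_inter (mp_mem hw fun γ hγ => by
        have := h3 γ (lt_of_lt_of_le hγ (by linarith))
        cases b
        · rwa [union_comm (G.Tube l false r')]
        · exact this) (hΨ.mp_mem hL' hw))
  have h7 : c₁ + c₂ + dd (hty (Ψ t) c₁ + hty (Ψ t) c₂ + mp (fun x => Ψ t (1, x)) w) ∈ sup (G.Lt l) := by
    convert add_mem (add_mem (hΨ.hty_mem hl1 d₁) (hΨ.hty_mem hl1 d₂)) (hΨ.mp_mem hl1 hz) using 1
    simp only [map_add, hΨ.mp_dd (sup_mono (dm_Lt_mono hL') hw)]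
    linear_combination (norm := ch2) hΨ.eq (sup_mono (inter_subset_right.trans (dm_Lt_mono hL')) h₁) +
      hΨ.eq (sup_mono (inter_subset_right.trans (dm_Lt_mono hL')) h₂)
  generalize hty (Ψ t) c₁ + hty (Ψ t) c₂ + mp (fun x => Ψ t (1, x)) w = y at h6 h7
  obtain ⟨k, hk⟩ := small3 (G.isOpen_Tube l b r') (G.isOpen_Tube l (!b) r') (G.isOpen_Lt l) inter_subset_left h6
  obtain ⟨_, h8, y₃, k₃, e1⟩ := Submodule.mem_sup.1 (hk k le_rfl)
  obtain ⟨y₁, k₁, y₂, k₂, rfl⟩ := Submodule.mem_sup.1 h8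
  have h9 : ∀ {b c y A}, c ∈ sup (G.Tube l b ρ ∩ G.Lt (l + e)) → y ∈ sup (A ∩ G.Tube l b r') →
      sdk k c + dd y ∈ sup (G.Tube l b r') := fun hc hy =>
    add_mem (sdk_mem k (sup_mono (inter_subset_left.trans (Metric.thickening_mono hρ' _)) hc))
      (dd_mem (sup_mono inter_subset_right hy))
  have h10 := mem_sup_of_add (h9 h₁ k₁) (h9 h₂ k₂) (by
    convert add_mem (sdk_mem k h7) (dd_mem (sup_mono inter_subset_right k₃)) using 1
    simp only [map_add, ← dd_sdk, ← e1]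
    ch2) (hdis b)
  refine ⟨y₁ + sdkH k c₁, add_mem (sup_mono (fun γ hγ => mem_inter (Metric.thickening_mono hrr _ hγ.2) hγ.1.2) k₁)
    (sdkH_mem k (sup_mono (inter_subset_inter_left _ (Metric.thickening_mono (hρ'.trans hrr) _)) h₁)), ?_⟩
  convert add_mem h10 (sdkH_mem k d₁) using 1
  rw [map_add]
  linear_combination (norm := ch2) dd_sdkH k c₁

end Setup
end Crest.Agent.R231
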