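import Crest.Agent.R231.D.BH
import Crest.Agent.R231.D.Flow
import Crest.Agent.R231.D.Semi

/-! R231, block D: the deformation of the loop space.  Choose `N` with `4 L² < N δ²` and `L < N δ`; `π, H` from `exists_BH`,
`φ` from `exists_flow`, `D = {en ≤ L²}` (compact, `⊆ Dom`), `Fx = {en = 0} ∪ nodes of critical circles`.
`Ψ t (u, γ) = H (2u, γ)` for `u ≤ 1/2`, `= π (φ ((2u-1) t, nodes γ))` for `u ≥ 1/2`.  The critical sets
`K b = nodes '' Kr l b` are compact and disjoint (`π ∘ nodes = id` on critical circles), `critV_isolated` controls the other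
fixed points; `H (u, ·)` and `π` fix the critical circles, so by compactness (tube lemma) they move nearby points little. -/

set_option autoImplicit false
set_option linter.unusedVariables false
set_option linter.unusedSectionVars false
open Set
open scoped Classical

noncomputable section
namespace Crest.Agent.R231
namespace Setup
variable {n : ℕ} (G : Setup n)

theorem psi_exists_N (L : ℝ) : ∃ N : ℕ, N ≠ 0 ∧ 4 * L ^ 2 < N * G.δ ^ 2 ∧ L < N * G.δ := by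
  have hδ := G.δ_pos
  obtain ⟨N, hN⟩ := exists_nat_gt (max (4 * L ^ 2 / G.δ ^ 2) (max (L / G.δ) 0))
  have h1 : 4 * L ^ 2 / G.δ ^ 2 < N := lt_of_le_of_lt (le_max_left _ _) hN
  have h2 : L / G.δ < N := lt_of_le_of_lt ((le_max_left _ _).trans (le_max_right _ _)) hN
  have h3 : (0 : ℝ) < N := lt_of_le_of_lt ((le_max_right _ _).trans (le_max_right _ _)) hN
  refine ⟨N, ?_, ?_, ?_⟩
  · rintro rfl; simp at h3
  · rwa [div_lt_iff₀ (by positivity)] at h1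
  · rwa [div_lt_iff₀ hδ] at h2

theorem psi_D_sub_Dom (N : ℕ) [NeZero N] {L : ℝ} (hL : 4 * L ^ 2 < N * G.δ ^ 2) {x : ZMod N → M n}
    (hx : G.en N x ≤ L ^ 2) : x ∈ G.Dom N := by
  intro k
  have h1 := G.ρ_sq_le_en N x k
  have hN : (0 : ℝ) < N := by exact_mod_cast Nat.pos_of_ne_zero (NeZero.ne N)
  have hδ := G.δ_pos
  have h2 : G.ρ (x k) (x (k + 1)) ^ 2 < G.δ ^ 2 := by
    have : N * G.ρ (x k) (x (k + 1)) ^ 2 < N * G.δ ^ 2 := by nlinarith [sq_nonneg L]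
    exact lt_of_mul_lt_mul_left this hN.le
  exact lt_of_pow_lt_pow_left₀ 2 hδ.le h2

theorem psi_tube_mono (l : ℝ) (b : Bool) {r r' : ℝ} (h : r ≤ r') : G.Tube l b r ⊆ G.Tube l b r' :=
  Metric.thickening_mono h _

theorem psi_Kr_sub (l : ℝ) (b : Bool) {r : ℝ} (h : 0 < r) : G.Kr l b ⊆ G.Tube l b r :=
  Metric.self_subset_thickening h _

theorem psi_disjoint (l : ℝ) : ∃ r, 0 < r ∧ ∀ b b' : Bool, ∀ γ ∈ G.Kr l b', γ ∈ G.Tube l b r → b' = b := by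
  obtain ⟨r, hr, hd⟩ := G.exists_disjoint_Tube l
  refine ⟨r, hr, fun b b' γ h1 h2 => ?_⟩
  have h3 := G.psi_Kr_sub l b' hr h1
  cases b <;> cases b'
  · rfl
  · exact absurd h2 (Set.disjoint_left.1 hd h3)
  · exact absurd h3 (Set.disjoint_left.1 hd h2)
  · rfl

theorem psi_geo_mem_Kr (i : G.ι) {m : ℕ} (hm : 0 < m) (b : Bool) (s : ℝ) :
    G.geo i m b s ∈ G.Kr (m * G.ℓ i) b := ⟨i, m, hm, rfl, s, rfl⟩

theorem psi_T_of_Kr {l : ℝ} {b : Bool} {γ : G.Loop} (h : γ ∈ G.Kr l b) : γ.T = l := by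
  obtain ⟨i, m, hm, rfl, s, rfl⟩ := h
  exact geo_T i m b s

theorem exists_Psi (L : ℝ) : ∃ Ψ : ℝ → ℝ × G.Loop → G.Loop,
    (∀ t, 0 ≤ t → ContinuousOn (Ψ t) (Icc 0 1 ×ˢ G.Lt L) ∧
      ∀ γ ∈ G.Lt L, Ψ t (0, γ) = γ ∧ ∀ u ∈ Icc (0 : ℝ) 1, (Ψ t (u, γ)).T ≤ γ.T) ∧
    (∀ a b, 0 < a → b < L → (∀ x ∈ G.critV, x ∉ Icc a b) → ∃ t, 0 ≤ t ∧ ∀ γ : G.Loop, γ.T ≤ b → (Ψ t (1, γ)).T < a) ∧
    (∀ l, 0 < l → l < L → ∀ b r₂, 0 < r₂ → ∃ r₁, 0 < r₁ ∧ ∃ e₀, 0 < e₀ ∧ l + e₀ ≤ L ∧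
      ∀ γ ∈ G.Tube l b r₁, γ.T < l + e₀ → ∀ t, 0 ≤ t → ∀ u ∈ Icc (0 : ℝ) 1,
        Ψ t (u, γ) ∈ G.Tube l b r₂ ∨ (Ψ t (u, γ)).T < l) ∧
    (∀ l, 0 < l → l < L → ∀ r, 0 < r → ∃ e₀, 0 < e₀ ∧ l + e₀ ≤ L ∧ ∃ t, 0 ≤ t ∧ ∀ γ : G.Loop, γ.T < l + e₀ →
      Ψ t (1, γ) ∈ G.Tube l true r ∪ G.Tube l false r ∪ G.Lt l) := by
  obtain ⟨N, hN0, hN1, hN2⟩ := G.psi_exists_N L
  have : NeZero N := ⟨hN0⟩
  obtain ⟨π, H, hπc, hπT, hHc, hH, hHgeo⟩ := G.exists_BH N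
  obtain ⟨φ, hφc, hφ0, hφadd, hφ⟩ := G.exists_flow N hN1
  set D : Set (ZMod N → M n) := {x | G.en N x ≤ L ^ 2} with hD
  set Fx : Set (ZMod N → M n) := {x | G.en N x = 0 ∨
    ∃ i, ∃ m : ℕ, ∃ b s, 0 < m ∧ m * G.ℓ i < N * G.δ ∧ x = G.nodes N (G.geo i m b s)} with hFx
  have hDom : ∀ x ∈ D, x ∈ G.Dom N := fun x hx => G.psi_D_sub_Dom N hN1 hx
  have hmaps : ∀ x ∈ D, ∀ t, 0 ≤ t → φ (t, x) ∈ D := fun x hx t ht => ((hφ x hx t ht).1).trans hx
  have hS : IsSemi D (G.en N) φ Fx :=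
    { compact := (isClosed_le (G.continuous_en N) continuous_const).isCompact
      cont_f := (G.continuous_en N).continuousOn
      cont := hφc.continuousOn
      maps := hmaps
      zero := fun x _ => hφ0 x
      add := fun x _ s t _ _ => hφadd s t x
      anti := fun x hx t ht => (hφ x hx t ht).1
      speed := fun x hx t ht => (hφ x hx t ht).2.1
      strict := fun x hx h => (hφ x hx 1 zero_le_one).2.2 one_pos h }
  have hLt : ∀ γ ∈ G.Lt L, γ ∈ G.Lt (N * G.δ) := fun γ hγ => lt_trans (show γ.T < L from hγ) hN2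
  have hnD : ∀ γ ∈ G.Lt L, G.nodes N γ ∈ D := by
    intro γ hγ
    have h1 := G.en_nodes_le N γ
    have h2 : γ.T < L := hγ
    have h3 := γ.T_nonneg
    show G.en N (G.nodes N γ) ≤ L ^ 2
    nlinarith
  -- level of `π`
  have hπlt : ∀ x ∈ D, ∀ a, 0 < a → G.en N x < a ^ 2 → (π x).T < a := by
    intro x hx a ha h
    rw [hπT x (hDom x hx)]
    exact (Real.sqrt_lt' ha).2 h
  -- `π ∘ nodes` fixes the critical circles
  have hπK : ∀ l, l < N * G.δ → ∀ b, ∀ γ ∈ G.Kr l b, π (G.nodes N γ) = γ := by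
    rintro l hl b γ ⟨i, m, hm, rfl, s, rfl⟩
    have h1 : G.geo i m b s ∈ G.Lt (N * G.δ) := by
      show (G.geo i m b s).T < _
      rw [geo_T]; exact hl
    rw [← (hH _ h1).2.1]
    exact hHgeo i m b s hl 1 ⟨zero_le_one, le_rfl⟩
  -- the fixed points in a thin strip above `l`
  have hstrip : ∀ l, 0 < l → ∃ e₁, 0 < e₁ ∧ ∀ x ∈ Fx, l ^ 2 ≤ G.en N x → G.en N x ≤ l ^ 2 + e₁ →
      ∃ b, ∃ γ ∈ G.Kr l b, x = G.nodes N γ := by
    intro l hl
    obtain ⟨e, he, hiso⟩ := critV_isolated (G := G) l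
    refine ⟨e ^ 2, by positivity, ?_⟩
    rintro x (h0 | ⟨i, m, b, s, hm, hlt, rfl⟩) h1 h2
    · rw [h0] at h1; nlinarith
    · rw [G.en_nodes_geo N i m b s hlt] at h1 h2
      have hp : 0 ≤ (m : ℝ) * G.ℓ i := mul_nonneg (Nat.cast_nonneg m) (G.ℓ_pos i).le
      have h3 : l ≤ m * G.ℓ i := le_of_sq_le_sq h1 hp
      have h4 : (m : ℝ) * G.ℓ i ≤ l + e := by
        apply le_of_sq_le_sq _ (by positivity)
        nlinarith
      have h5 : (m : ℝ) * G.ℓ i = l := hiso _ ⟨i, m, hm, rfl⟩ (abs_le.2 ⟨by linarith, by linarith⟩)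
      exact ⟨b, G.geo i m b s, h5 ▸ G.psi_geo_mem_Kr i hm b s, rfl⟩
  -- orbits starting near the critical set stay in the tube or drop
  have hstay : ∀ l, 0 < l → l < L → ∀ b r, 0 < r → ∃ U', IsOpen U' ∧ G.nodes N '' G.Kr l b ⊆ U' ∧
      ∃ e, 0 < e ∧ ∀ x ∈ D ∩ U', G.en N x < l ^ 2 + e → ∀ t, 0 ≤ t →
        π (φ (t, x)) ∈ G.Tube l b r ∨ (π (φ (t, x))).T < l := by
    intro l hl hlL b r hr
    obtain ⟨r₀, hr₀, hdis⟩ := G.psi_disjoint l
    obtain ⟨e₁, he₁, hst⟩ := hstrip l hl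
    have hlN : l < N * G.δ := hlL.trans hN2
    have hK : IsCompact (G.nodes N '' G.Kr l b) := (isCompact_Kr l b).image (G.continuous_nodes N)
    have hU : IsOpen (G.Dom N ∩ π ⁻¹' G.Tube l b (min r r₀)) :=
      hπc.isOpen_inter_preimage (G.isOpen_Dom N) (isOpen_Tube l b _)
    have hKU : G.nodes N '' G.Kr l b ⊆ G.Dom N ∩ π ⁻¹' G.Tube l b (min r r₀) := by
      rintro _ ⟨γ, hγ, rfl⟩
      refine ⟨G.nodes_mem_Dom N (by rw [G.psi_T_of_Kr hγ]; exact hlN), ?_⟩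
      rw [mem_preimage, hπK l hlN b γ hγ]
      exact G.psi_Kr_sub l b (lt_min hr hr₀) hγ
    obtain ⟨U', hU'o, hKU', -, e₀, he₀, -, hmain⟩ := hS.stay hK hU hKU (l := l ^ 2) he₁ (by
      rintro x ⟨⟨hxD, -, hxU⟩, hxF⟩ h1 h2
      obtain ⟨b', γ, hγ, rfl⟩ := hst x hxF h1 h2
      have h3 : π (G.nodes N γ) ∈ G.Tube l b (min r r₀) := hxU
      rw [hπK l hlN b' γ hγ] at h3
      have h4 := hdis b b' γ hγ (G.psi_tube_mono l b (min_le_right _ _) h3)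
      subst h4
      exact ⟨γ, hγ, rfl⟩)
    refine ⟨U', hU'o, hKU', e₀, he₀, fun x hx h t ht => ?_⟩
    rcases hmain x hx h t ht with h1 | h1
    · exact Or.inl (G.psi_tube_mono l b (min_le_left _ _) h1.2)
    · exact Or.inr (hπlt _ (hmaps x hx.1 t ht) l hl h1)
  -- choice of a small level margin
  have hmargin : ∀ l, 0 < l → l < L → ∀ e, 0 < e → ∃ e₀, 0 < e₀ ∧ l + e₀ ≤ L ∧
      ∀ γ : G.Loop, γ.T < l + e₀ → G.en N (G.nodes N γ) < l ^ 2 + e := by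
    intro l hl hlL e he
    refine ⟨min (L - l) (min 1 (e / (2 * l + 1))), lt_min (by linarith) (lt_min one_pos (by positivity)),
      by have := min_le_left (L - l) (min 1 (e / (2 * l + 1))); linarith, fun γ hγ => ?_⟩
    set e₀ := min (L - l) (min 1 (e / (2 * l + 1))) with he₀
    have h0 : 0 < e₀ := lt_min (by linarith) (lt_min one_pos (by positivity))
    have h1 : e₀ ≤ 1 := (min_le_right _ _).trans (min_le_left _ _)
    have h2 : e₀ ≤ e / (2 * l + 1) := (min_le_right _ _).trans (min_le_right _ _)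
    rw [le_div_iff₀ (by positivity)] at h2
    have h3 := G.en_nodes_le N γ
    have h4 := γ.T_nonneg
    have h5 : γ.T ^ 2 < (l + e₀) ^ 2 := by nlinarith
    nlinarith
  refine ⟨fun t p => if p.1 ≤ 1 / 2 then H (2 * p.1, p.2) else π (φ ((2 * p.1 - 1) * t, G.nodes N p.2)),
    ?_, ?_, ?_, ?_⟩
  · intro t ht
    refine ⟨?_, fun γ hγ => ⟨?_, fun u hu => ?_⟩⟩
    · apply ContinuousOn.if
      · rintro ⟨u, γ⟩ ⟨⟨hu, hγ⟩, hfr⟩
        have h1 : u = 1 / 2 := frontier_le_subset_eq (f := fun p : ℝ × G.Loop => p.1) (g := fun _ => (1 / 2 : ℝ))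
          continuous_fst continuous_const hfr
        subst h1
        simp only
        rw [show (2 : ℝ) * (1 / 2) = 1 by norm_num, sub_self, zero_mul, hφ0]
        exact (hH γ (hLt γ hγ)).2.1
      · refine hHc.comp (by fun_prop) ?_
        rintro ⟨u, γ⟩ ⟨⟨hu, hγ⟩, hcl⟩
        have h1 : IsClosed {a : ℝ × G.Loop | a.1 ≤ 1 / 2} := isClosed_le continuous_fst continuous_const
        rw [h1.closure_eq] at hcl
        have h2 : u ≤ 1 / 2 := hcl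
        exact ⟨⟨by have := hu.1; simp only at this ⊢; linarith, by simp only; linarith⟩, hLt γ hγ⟩
      · have hc : Continuous (fun p : ℝ × G.Loop => φ ((2 * p.1 - 1) * t, G.nodes N p.2)) :=
          hφc.comp ((by fun_prop : Continuous fun p : ℝ × G.Loop => (2 * p.1 - 1) * t).prodMk
            ((G.continuous_nodes N).comp continuous_snd))
        refine hπc.comp hc.continuousOn ?_
        rintro ⟨u, γ⟩ ⟨⟨hu, hγ⟩, hcl⟩
        have h1 : IsClosed {a : ℝ × G.Loop | 1 / 2 ≤ a.1} := isClosed_le continuous_const continuous_fst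
        have h3 : {a : ℝ × G.Loop | ¬ a.1 ≤ 1 / 2} ⊆ {a : ℝ × G.Loop | 1 / 2 ≤ a.1} := fun a ha => (not_le.1 ha).le
        have h2 : 1 / 2 ≤ u := closure_minimal h3 h1 hcl
        exact hDom _ (hmaps _ (hnD γ hγ) _ (mul_nonneg (by linarith) ht))
    · simp only
      rw [if_pos (by norm_num), mul_zero]
      exact (hH γ (hLt γ hγ)).1
    · simp only
      split_ifs with h
      · exact (hH γ (hLt γ hγ)).2.2 _ ⟨by linarith [hu.1], by linarith⟩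
      · have h1 : 0 ≤ (2 * u - 1) * t := mul_nonneg (by linarith [not_le.1 h]) ht
        rw [hπT _ (hDom _ (hmaps _ (hnD γ hγ) _ h1))]
        exact Real.sqrt_le_iff.2 ⟨γ.T_nonneg, ((hφ _ (hnD γ hγ) _ h1).1).trans (G.en_nodes_le N γ)⟩
  · intro a b ha hbL hcrit
    by_cases hb : b < 0
    · exact ⟨0, le_rfl, fun γ hγ => absurd (γ.T_nonneg.trans hγ) (not_le.2 hb)⟩
    push Not at hb
    obtain ⟨T, hT, hdesc⟩ := hS.descend (a := a ^ 2) (b := b ^ 2) (by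
      rintro x ⟨hxD, h0 | ⟨i, m, b', s, hm, hlt, rfl⟩⟩ h1 h2
      · rw [h0] at h1; nlinarith
      · rw [G.en_nodes_geo N i m b' s hlt] at h1 h2
        have hp : 0 ≤ (m : ℝ) * G.ℓ i := mul_nonneg (Nat.cast_nonneg m) (G.ℓ_pos i).le
        exact hcrit _ ⟨i, m, hm, rfl⟩ ⟨le_of_sq_le_sq h1 hp, le_of_sq_le_sq h2 hb⟩)
    refine ⟨T, hT, fun γ hγ => ?_⟩
    have hγL : γ ∈ G.Lt L := lt_of_le_of_lt hγ hbL
    simp only
    rw [if_neg (by norm_num), show ((2 : ℝ) * 1 - 1) * T = T by ring]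
    refine hπlt _ (hmaps _ (hnD γ hγL) T hT) a ha (hdesc _ (hnD γ hγL) ?_)
    exact (G.en_nodes_le N γ).trans (pow_le_pow_left₀ γ.T_nonneg hγ 2)
  · intro l hl hlL b r₂ hr₂
    obtain ⟨U', hU'o, hKU', e, he, hmain⟩ := hstay l hl hlL b r₂ hr₂
    obtain ⟨e₀, he₀, hle, hmar⟩ := hmargin l hl hlL e he
    have hlN : l < N * G.δ := hlL.trans hN2
    obtain ⟨O, hOo, hO⟩ := (continuousOn_iff'.1 hHc) _ (isOpen_Tube (G := G) l b r₂)
    obtain ⟨v, w, -, hwo, hv, hw, hvw⟩ := generalized_tube_lemma (isCompact_Icc (a := (0 : ℝ)) (b := 1))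
      (isCompact_Kr (G := G) l b) hOo (by
        rintro ⟨u, γ⟩ ⟨hu, hγ⟩
        have h1 : (u, γ) ∈ H ⁻¹' G.Tube l b r₂ ∩ Icc 0 1 ×ˢ G.Lt (N * G.δ) := by
          refine ⟨?_, hu, ?_⟩
          · obtain ⟨i, m, hm, rfl, s, rfl⟩ := hγ
            rw [mem_preimage, hHgeo i m b s hlN u hu]
            exact G.psi_Kr_sub _ b hr₂ (G.psi_geo_mem_Kr i hm b s)
          · show γ.T < _
            rw [G.psi_T_of_Kr hγ]; exact hlN
        rw [hO] at h1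
        exact h1.1)
    obtain ⟨r₁, hr₁, hsub⟩ := (isCompact_Kr (G := G) l b).exists_thickening_subset_open
      (hwo.inter (hU'o.preimage (G.continuous_nodes N)))
      (fun γ hγ => ⟨hw hγ, hKU' ⟨γ, hγ, rfl⟩⟩)
    refine ⟨r₁, hr₁, e₀, he₀, hle, fun γ hγ hγT t ht u hu => ?_⟩
    have hγL : γ ∈ G.Lt L := lt_of_lt_of_le hγT hle
    simp only
    split_ifs with h
    · left
      have hu' : 2 * u ∈ Icc (0 : ℝ) 1 := ⟨by linarith [hu.1], by linarith⟩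
      have h1 : (2 * u, γ) ∈ O ∩ Icc 0 1 ×ˢ G.Lt (N * G.δ) :=
        ⟨hvw ⟨hv hu', (hsub hγ).1⟩, hu', hLt γ hγL⟩
      rw [← hO] at h1
      exact h1.1
    · exact hmain _ ⟨hnD γ hγL, (hsub hγ).2⟩ (hmar γ hγT) _ (mul_nonneg (by linarith [not_le.1 h]) ht)
  · intro l hl hlL r hr
    obtain ⟨U₁, hU₁o, hK₁, e₁, he₁, hm₁⟩ := hstay l hl hlL true r hr
    obtain ⟨U₂, hU₂o, hK₂, e₂, he₂, hm₂⟩ := hstay l hl hlL false r hr
    obtain ⟨e₃, he₃, hst⟩ := hstrip l hl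
    obtain ⟨e₀, he₀, hle, hmar⟩ := hmargin l hl hlL (min e₁ (min e₂ e₃)) (lt_min he₁ (lt_min he₂ he₃))
    obtain ⟨T, hT, hreach⟩ := hS.reach (V := U₁ ∪ U₂) (C := univ) (hU₁o.union hU₂o) isClosed_univ
      (a := l ^ 2) (b := l ^ 2 + e₃) (by
        rintro x ⟨-, hxF⟩ h1 h2
        obtain ⟨b', γ, hγ, rfl⟩ := hst x hxF h1 h2
        cases b'
        · exact Or.inr (hK₂ ⟨γ, hγ, rfl⟩)
        · exact Or.inl (hK₁ ⟨γ, hγ, rfl⟩))
    refine ⟨e₀, he₀, hle, T, hT, fun γ hγT => ?_⟩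
    have hγL : γ ∈ G.Lt L := lt_of_lt_of_le hγT hle
    have hx := hnD γ hγL
    have hen := hmar γ hγT
    have q1 := min_le_left e₁ (min e₂ e₃)
    have q2 := (min_le_right e₁ (min e₂ e₃)).trans (min_le_left _ _)
    have q3 := (min_le_right e₁ (min e₂ e₃)).trans (min_le_right _ _)
    obtain ⟨t, ⟨ht0, htT⟩, hy⟩ := hreach _ hx (by linarith) (fun t _ => Or.inl (mem_univ _))
    have hyD := hmaps _ hx t ht0
    have hyen := (hφ _ hx t ht0).1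
    have hsplit : φ (T, G.nodes N γ) = φ (T - t, φ (t, G.nodes N γ)) := by
      rw [← hφadd, sub_add_cancel]
    have hTt : 0 ≤ T - t := by linarith
    simp only
    rw [if_neg (by norm_num), show ((2 : ℝ) * 1 - 1) * T = T by ring, hsplit]
    rcases hy with (hy | hy) | hy
    · rcases hm₁ _ ⟨hyD, hy⟩ (by linarith) _ hTt with h | h
      · exact Or.inl (Or.inl h)
      · exact Or.inr h
    · rcases hm₂ _ ⟨hyD, hy⟩ (by linarith) _ hTt with h | h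
      · exact Or.inl (Or.inr h)
      · exact Or.inr h
    · exact Or.inr (hπlt _ (hmaps _ hyD _ hTt) l hl (lt_of_le_of_lt (hφ _ hyD _ hTt).1 hy))

end Setup
end Crest.Agent.R231
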